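import Crest.Agent.N067.T.Mid
import Crest.Agent.N067.M.Bas
import Crest.Agent.N067.M.FL0

/-! # T/Dat (helper69): CORE, MID and GT on the data of the master inequality -/

set_option autoImplicit false

open MeasureTheory Laplacian InnerProductSpace Topology Filter Set Metric
open scoped RealInnerProductSpace Gradient ContDiff ENNReal

namespace Crest.Agent.N067.T

open Crest.Agent.R077 Crest.Agent.N067.V Crest.Agent.N067.Y Crest.Agent.N067.M

noncomputable section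

variable {n : ℕ} {D : Dat n} {K lam C1 rs : ℝ} {x y : EE n}

/-- `U ≥ h (2 ρ)` -/
theorem h_le_U (O : D.Ok K lam C1 rs) (B : D.Bas) (hx : x ∈ D.Om) {r : ℝ}
    (hr : 2 * (1 / ph0 D.v x) ≤ r) : D.h r ≤ D.U x :=
  (O.h_anti (lt_min (by linarith [B.rp8 hx]) (by linarith [B.rm8 hx]))
    ((B.min_le hx).trans hr)).trans (O.hmin_le_U B hx)

/-- `U ≥ 3 c / 16` where `ph0 ≥ c ≥ 2 / f0` -/
theorem ph_le_U (O : D.Ok K lam C1 rs) (B : D.Bas) (hx : x ∈ D.Om) {c : ℝ} (hc : 0 < c)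
    (h1 : c ≤ ph0 D.v x) (h2 : 2 / c ≤ D.f0) : 3 * c / 16 ≤ D.U x := by
  refine le_trans (le_of_eq ?_) ((O.hlow (2 / c) (by positivity) h2).1.trans
    (h_le_U O B hx ?_))
  · field_simp; norm_num
  · rw [mul_one_div]; gcongr

/-- `U ≤ 2 / ρm + 4 ph0` -/
theorem U_le_ph (O : D.Ok K lam C1 rs) (B : D.Bas) (hx : x ∈ D.Om) :
    D.U x ≤ 2 / D.ρm + 4 * ph0 D.v x := by
  have h0 : 0 < min (D.rp x) (D.rm x) := lt_min (by linarith [B.rp8 hx]) (by linarith [B.rm8 hx])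
  have p0 := B.ph x
  have f1 := O.f1
  have r0 : 0 < D.ρm := lt_of_lt_of_le (by positivity) O.rm
  have h1 := (O.hpos _ h0).2.1
  have h2 : 1 / min (D.rp x) (D.rm x) ≤ 1 / min D.ρm (1 / ph0 D.v x / 2) :=
    one_div_le_one_div_of_le (by positivity) (B.le_min hx)
  have h3 : 1 / min D.ρm (1 / ph0 D.v x / 2) ≤ 1 / D.ρm + 2 * ph0 D.v x := by
    rcases min_choice D.ρm (1 / ph0 D.v x / 2) with h | h <;> rw [h]
    · linarith
    · have : 1 / (1 / ph0 D.v x / 2) = 2 * ph0 D.v x := by field_simp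
      have : 0 ≤ 1 / D.ρm := by positivity
      linarith
  have h4 := O.U_le B hx
  rw [show 2 / D.ρm = 2 * (1 / D.ρm) by ring]
  linarith

/-- **CORE** on the data; the constants depend on `T, c, K` only -/
theorem coreD (n : ℕ) (T c K : ℝ) (hc : 0 < c) : ∃ A fs : ℝ, 0 < A ∧
    ∀ (D : Dat n) (lam C1 rs : ℝ), D.Ok K lam C1 rs → D.Bas → fs ≤ D.f0 →
      ∫⁻ x in {x | |dd D.v x| ≤ T ∧ c ≤ ph0 D.v x}, ENNReal.ofReal (D.W x ^ 2) ≤
        ENNReal.ofReal A * ∫⁻ x in {x | |dd D.v x| ≤ 1},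
          ENNReal.ofReal (tt D.v x * D.Z x ^ 2 * D.W x ^ 2) := by
  by_cases hK : 0 ≤ K
  swap
  · exact ⟨1, 0, one_pos, fun D _ _ _ O => absurd (zero_le_one.trans O.K1) hK⟩
  obtain ⟨c', A, hc', hA, h⟩ := core n T c K hc hK
  set θ := min 1 (3 * c' / 16) with hθ
  have θ0 : 0 < θ := by positivity
  refine ⟨A / θ ^ 4, 2 / c', by positivity, fun D lam C1 rs O B hf => ?_⟩
  have := h D.v D.W D.Z (θ ^ 2) B.sol O.pos.stab O.Wcd.continuous.measurable (O.meas_Z B)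
    (fun x => (O.Wpos x).le) O.Wcmp (by positivity) fun y _ hy => by
      by_cases hO : y ∈ D.Om
      · rw [O.Z_eq B hO]
        exact O.sq_le_z B.M1 θ0.le (min_le_left _ _)
          ((min_le_right _ _).trans (ph_le_U O B hO hc' hy hf))
      · rw [Dat.Z, if_neg hO]; exact pow_le_one₀ θ0.le (min_le_left _ _)
  simp only [ENNReal.ofReal_mul (sq_nonneg (θ ^ 2))] at this
  rw [lintegral_const_mul' _ _ ENNReal.ofReal_ne_top] at this
  calc _ = ENNReal.ofReal (1 / θ ^ 4) * (ENNReal.ofReal ((θ ^ 2) ^ 2) *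
        ∫⁻ x in {x | |dd D.v x| ≤ T ∧ c ≤ ph0 D.v x}, ENNReal.ofReal (D.W x ^ 2)) := by
        rw [← mul_assoc, ← ENNReal.ofReal_mul (by positivity),
          show 1 / θ ^ 4 * (θ ^ 2) ^ 2 = 1 by field_simp, ENNReal.ofReal_one, one_mul]
    _ ≤ _ := by
        refine (mul_le_mul_right this _).trans (le_of_eq ?_)
        rw [← mul_assoc, ← ENNReal.ofReal_mul (by positivity)]
        congr 2; ring

theorem tsq_band (n : ℕ) : ∃ C : ℝ, 0 ≤ C ∧ ∀ v : EE n → ℝ, Pos v → Stable v →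
    ∀ x, |dd v x| ≤ 1 → tt v x ≤ C * ph0 v x ^ 2 := by
  obtain ⟨C, hC, h⟩ := fl_tsq n 1 one_pos
  refine ⟨8 * C, by linarith, fun v hv hs x hx => ?_⟩
  have h1 := h v hv.toSol hs x
  rw [Real.rpow_one] at h1
  have h2 := mul_le_mul_of_nonneg_left (psi_band hv.toSol hx) (hv.tpos x).le
  linarith

/-- **MID** on the data.  `om` is `W²` with `r0` replaced by `max r0 f0`. -/
theorem midD (hX : X5Stmt n) {b : ℝ} (hb0 : 0 ≤ b) (hb : b < 1) :
    ∃ e0 lw0 : ℝ, 0 < e0 ∧ 0 < lw0 ∧ ∀ K K' e : ℝ, 0 ≤ K' → 0 < e → ∃ e' C fs : ℝ, 0 < e' ∧ 0 ≤ C ∧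
    ∀ (D : Dat n) (om : EE n → ℝ) (lam C1 rs : ℝ), D.Ok K lam C1 rs → D.Bas → fs ≤ D.f0 →
      Wt lw0 om → (∀ x, om x ≤ D.W x ^ 2) → (∀ x, D.lw x ≤ 1 / D.f0 → D.W x ^ 2 ≤ K' * om x) →
      (∀ x, ‖∇ om x‖ ≤ K' * min (D.lw x) (1 / D.f0) * om x) →
      (∀ r, 1 ≤ r → r ≤ D.f0 → D.Z0 * (D.f0 / r) ^ (101 / 100 : ℝ) ≤ K * D.ζ (D.h r)) →
      (∫⁻ x in {x | e0 ≤ tt D.v x},
          ENNReal.ofReal (D.Z0 ^ 2 * D.f0 ^ 3 * D.F (pb b D.v x) * D.W x ^ 2) ≤
        ENNReal.ofReal e' * ∫⁻ x in {x | |dd D.v x| ≤ 1},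
          ENNReal.ofReal (tt D.v x * D.Z x ^ 2 * D.W x ^ 2)) →
      ∫⁻ x in {x | |dd D.v x| ≤ 1},
          ENNReal.ofReal (D.Z0 ^ 2 * D.f0 ^ 3 * D.F (tt D.v x) * D.W x ^ 2) ≤
        ENNReal.ofReal e * (∫⁻ x in {x | |dd D.v x| ≤ 1},
          ENNReal.ofReal (tt D.v x * D.Z x ^ 2 * D.W x ^ 2)) +
        ENNReal.ofReal C * ∫⁻ x, ENNReal.ofReal (D.Z0 ^ 2 * D.f0 ^ 3 *
          min (D.lw x) (1 / D.f0) ^ 5 * psi D.v x ^ 2 * D.W x ^ 2) := by
  obtain ⟨C0, hC0, hT⟩ := tsq_band n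
  obtain ⟨Cp, hCp, hp⟩ := ph0_bd n
  obtain ⟨e0, lw0, he0, hl0, h⟩ := mid hX hC0 hT hb0 hb
  refine ⟨e0, lw0, he0, hl0, fun K K' e hK' he => ?_⟩
  obtain ⟨e', he', h⟩ := h K' e hK' he
  -- `a ^ (-1/100) * A ≤ √e'` for large `a`
  obtain ⟨L, hL2, hL⟩ : ∃ L : ℝ, 1 ≤ L ∧ ∀ a, L ≤ a →
      (|K| * (2 + Cp)) ^ 2 ≤ e' * (a ^ (1 / 100 : ℝ)) ^ 2 := by
    have := ((tendsto_pow_atTop two_ne_zero).comp
      (tendsto_rpow_atTop (y := 1 / 100) (by norm_num))).const_mul_atTop he'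
    obtain ⟨L, hL⟩ := eventually_atTop.1 (this.eventually_ge_atTop ((|K| * (2 + Cp)) ^ 2))
    exact ⟨max L 1, le_max_right _ _, fun a ha => hL a (le_of_max_le_left ha)⟩
  obtain ⟨C, hC, h⟩ := h (2 * L)
  refine ⟨e', C, L, he', hC, fun D om lam C1 rs O B hf hw w1 w2 w3 hz hB => ?_⟩
  have f0 : 0 < D.f0 := one_pos.trans_le O.f1
  have Z0 := O.Z0_pos
  have K1 := O.K1
  rw [abs_of_nonneg (by linarith : 0 ≤ K)] at hL
  refine h D.v D.W om D.Z D.lw D.f0 D.Z0 O.pos.toPos O.pos.stab hw O.Wcd.continuous.measurable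
    (O.meas_Z B) f0 (fun x => (O.lwpos x).1.le) w1 w2 w3 (fun y _ hy => ?_) hB
  have p0 := B.ph y
  have key : ∀ a z s : ℝ, L ≤ a → 0 ≤ s → s ≤ 2 + Cp → D.Z0 * a ^ (101 / 100 : ℝ) ≤ K * z →
      (D.Z0 * a * s) ^ 2 ≤ e' * z ^ 2 := by
    intro a z s ha s0 s1 hz
    have a0 : 0 < a := by linarith
    have u0 : 0 < a ^ (1 / 100 : ℝ) := by positivity
    rw [show (101 / 100 : ℝ) = 1 + 1 / 100 by norm_num, Real.rpow_add a0, Real.rpow_one] at hz
    refine le_of_mul_le_mul_right ?_ (pow_pos u0 2)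
    calc _ = (D.Z0 * (a * a ^ (1 / 100 : ℝ)) * s) ^ 2 := by ring
      _ ≤ (K * z * (2 + Cp)) ^ 2 := by gcongr; exact le_trans (by positivity) hz
      _ = (K * (2 + Cp)) ^ 2 * z ^ 2 := by ring
      _ ≤ e' * (a ^ (1 / 100 : ℝ)) ^ 2 * z ^ 2 := by gcongr; exact hL a ha
      _ = _ := by ring
  by_cases hO : y ∈ D.Om
  · have r1 : 1 ≤ 2 * (1 / ph0 D.v y) := by linarith [B.rho hO, B.M1]
    have r2 : 2 * (1 / ph0 D.v y) ≤ D.f0 := by
      rw [mul_one_div, div_le_iff₀ p0]; linarith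
    have a1 := hz _ r1 r2
    have a2 : D.ζ (D.h (2 * (1 / ph0 D.v y))) ≤ D.Z y := by
      rw [O.Z_eq B hO]
      exact O.zmono (O.h_pos (by linarith)).le (O.U_pos B hO).le (h_le_U O B hO le_rfl)
    have := key (D.f0 / (2 * (1 / ph0 D.v y))) (D.Z y) 2
      (by rw [le_div_iff₀ (by linarith), mul_one_div, ← mul_div_assoc, div_le_iff₀ p0]; linarith)
      zero_le_two (by linarith) (a1.trans (by gcongr))
    refine le_trans (le_of_eq ?_) this
    field_simp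
  · have a1 := hz 1 le_rfl O.f1
    rw [div_one] at a1
    rw [Dat.Z, if_neg hO]
    exact key D.f0 1 _ hf p0.le (by linarith [hp D.v B.sol y])
      (a1.trans (by gcongr; exact (O.zbd _ (O.h_pos one_pos)).2))

theorem norm_ft {v : EE n → ℝ} (hv : Sol v) (x : EE n) : ‖x - ft v x‖ ≤ |dd v x| := by
  rw [ft, sub_sub_cancel, norm_smul, Real.norm_eq_abs]
  exact mul_le_of_le_one_right (abs_nonneg _) (NN_le_one hv x)

theorem abs_dd_ft {v : EE n → ℝ} (hv : Sol v) (x : EE n) :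
    |dd v (ft v x)| ≤ |dd v x| * tt v x + ph0 v x / 2 * dd v x ^ 2 := by
  have h1 := abs_tay_ph0 hv (-(dd v x • nn v x)) x
  have h2 : tay (dd v) (-(dd v x • nn v x)) x = dd v x * tt v x - dd v (ft v x) := by
    rw [tay, ← inner_grad, inner_neg_right, real_inner_smul_right, ft, sub_eq_add_neg x, M.tt_eq, NN]
    change _ + -(_ * ⟪nn v x, nn v x⟫) - _ = _
    rw [real_inner_self_eq_norm_sq]; ring
  have h3 : ‖-(dd v x • nn v x)‖ ^ 2 ≤ dd v x ^ 2 := by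
    have := norm_ft hv x
    rw [ft, sub_sub_cancel] at this
    rw [norm_neg, ← sq_abs (dd v x)]
    gcongr
  have h4 := mul_le_mul_of_nonneg_left h3 (div_nonneg (ph0_nonneg hv x) zero_le_two)
  have h5 := abs_sub (dd v x * tt v x) (dd v x * tt v x - dd v (ft v x))
  rw [sub_sub_cancel, abs_mul, abs_of_nonneg (hv.tt_nonneg x)] at h5
  rw [h2] at h1
  linarith

/-- the foot of a valid point is shallow -/
theorem ft_shallow (n : ℕ) (C2 : ℝ) : ∃ M0 : ℝ, ∀ (v : EE n → ℝ) (M ρm : ℝ), PS v → M0 ≤ M →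
    ∀ x ∈ Val v M C2 ρm, |dd v (ft v x)| ≤ 1 := by
  obtain ⟨C, hC, h⟩ := fl_tt n
  have c0 : 0 < (C + 1) * (C2 ^ 2 + 1) := by positivity
  obtain ⟨M0, hM⟩ := eventually_atTop.1 (((Real.isLittleO_pow_log_id_atTop (n := 2)).def
    (one_div_pos.2 c0)).and (Real.tendsto_log_atTop.eventually_ge_atTop 1))
  refine ⟨max M0 1, fun v M ρm hv hM0 x hx => (abs_dd_ft hv.toSol x).trans ?_⟩
  have p0 := ph0_pos hv.toPos hv.stab x
  have M1 := le_of_max_le_right hM0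
  have a1 : M ≤ 1 / ph0 v x := ((lt_one_div (by linarith) p0).2 hx.1).le
  obtain ⟨a2, a3⟩ := hM _ ((le_of_max_le_left hM0).trans a1)
  set l := Real.log (1 / ph0 v x)
  rw [id, Real.norm_of_nonneg (sq_nonneg _), Real.norm_of_nonneg (by positivity), one_div_mul_one_div,
    le_div_iff₀ (by positivity)] at a2
  have a4 := h v hv.toSol hv.stab x x
  rw [sub_self, norm_zero, add_zero, one_pow, one_mul] at a4
  have a5 : dd v x ^ 2 ≤ (C2 * l) ^ 2 := by
    rw [← sq_abs (dd v x)]; gcongr; exact hx.2.1.le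
  have a6 : |dd v x| ≤ (C2 ^ 2 + 1) * l ^ 2 := by
    nlinarith [sq_nonneg (|dd v x| - 1), sq_abs (dd v x)]
  have a7 := hv.toSol.tt_nonneg x
  calc _ ≤ (C2 ^ 2 + 1) * l ^ 2 * (C * ph0 v x) + ph0 v x * ((C2 ^ 2 + 1) * l ^ 2) := by
        gcongr
        · linarith
        · nlinarith [sq_nonneg l]
    _ = _ := by ring
    _ ≤ 1 := a2

/-- comparison of `Z` when the target is above the level `80 / f0` -/
theorem Z_le_Z (n : ℕ) : ∃ C : ℝ, 1 ≤ C ∧ ∀ (D : Dat n) (K lam C1 rs : ℝ), D.Ok K lam C1 rs →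
    D.Bas → ∀ x ∈ D.Om, ∀ y ∈ D.Om, 80 / D.f0 ≤ D.U y →
      D.Z x ≤ C * (1 + ‖x - y‖) ^ 4 * D.Z y := by
  obtain ⟨C, hC, h⟩ := ph0_cmp n
  refine ⟨(25 * C) ^ 2, by nlinarith, fun D K lam C1 rs O B x hx y hy hU => ?_⟩
  have f1 := O.f1
  have l1 : 1 ≤ C * (1 + ‖x - y‖) ^ 2 :=
    one_le_mul_of_one_le_of_one_le hC (one_le_pow₀ (le_add_of_nonneg_right (norm_nonneg _)))
  set l := C * (1 + ‖x - y‖) ^ 2 with hl
  have U0 := O.U_pos B hy
  have a1 : ph0 D.v y ≤ 6 * D.U y := by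
    rcases le_total (2 / ph0 D.v y) D.f0 with h1 | h1
    · linarith [ph_le_U O B hy (B.ph y) le_rfl h1]
    · rw [le_div_iff₀ (B.ph y)] at h1
      rw [div_le_iff₀ (by linarith)] at hU
      nlinarith [B.ph y]
  have a2 : 2 / D.ρm ≤ D.U y := by
    refine le_trans ?_ hU
    rw [div_le_div_iff₀ (lt_of_lt_of_le (by positivity) O.rm) (by linarith)]
    nlinarith [O.rm]
  have a3 := h D.v B.sol O.pos.stab y x
  rw [norm_sub_rev] at a3
  have a4 : D.U x ≤ 25 * l * D.U y := by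
    have := mul_le_mul_of_nonneg_left a1 (zero_le_one.trans l1)
    nlinarith [U_le_ph O B hx]
  have a5 := O.z_sq (θ := 1 / (25 * l)) (O.U_pos B hx) (by positivity)
    (by rw [div_le_one (by linarith)]; linarith)
  have a6 : D.ζ (1 / (25 * l) * D.U x) ≤ D.ζ (D.U y) :=
    O.zmono (mul_pos (by positivity) (O.U_pos B hx)).le U0.le
      (by rw [one_div, inv_mul_le_iff₀ (by linarith)]; exact a4)
  rw [O.Z_eq B hx, O.Z_eq B hy]
  have a7 := a5.trans a6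
  rw [div_pow, one_pow, one_div, inv_mul_le_iff₀ (by positivity)] at a7
  refine a7.trans (le_of_eq ?_)
  rw [hl]; ring

/-- comparison of `U` down to the level `1 / f0` -/
theorem U_le_U (n : ℕ) : ∃ C : ℝ, 1 ≤ C ∧ ∀ (D : Dat n) (K lam C1 rs : ℝ), D.Ok K lam C1 rs →
    D.Bas → ∀ x ∈ D.Om, ∀ y ∈ D.Om, D.U y ≤ C * (1 + ‖x - y‖) ^ 2 * max (D.U x) (1 / D.f0) := by
  obtain ⟨C, hC, h⟩ := ph0_cmp n
  refine ⟨26 * C, by linarith, fun D K lam C1 rs O B x hx y hy => ?_⟩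
  have f1 := O.f1
  have l1 : 1 ≤ C * (1 + ‖x - y‖) ^ 2 :=
    one_le_mul_of_one_le_of_one_le hC (one_le_pow₀ (le_add_of_nonneg_right (norm_nonneg _)))
  have m1 := le_max_left (D.U x) (1 / D.f0)
  have m2 := le_max_right (D.U x) (1 / D.f0)
  have m0 : 0 < 1 / D.f0 := by positivity
  set m := max (D.U x) (1 / D.f0)
  have a1 : ph0 D.v x ≤ 6 * m := by
    rcases le_total (2 / ph0 D.v x) D.f0 with h1 | h1
    · linarith [ph_le_U O B hx (B.ph x) le_rfl h1]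
    · rw [le_div_iff₀ (B.ph x), mul_comm, ← le_div_iff₀ (by linarith), ← mul_one_div] at h1
      linarith
  have a2 : 2 / D.ρm ≤ 2 * m := by
    refine le_trans ?_ (mul_le_mul_of_nonneg_left m2 zero_le_two)
    rw [mul_one_div]
    gcongr
    nlinarith [O.rm]
  have a3 := h D.v B.sol O.pos.stab x y
  have a4 := mul_le_mul_of_nonneg_left a1 (zero_le_one.trans l1)
  have a5 := mul_le_mul_of_nonneg_right l1 (m0.le.trans m2)
  nlinarith [U_le_ph O B hy]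

/-- **GT**: the gradient of the depth of the cut is paid on the band; `P x = b (U x)`,
`Q y = b (U y)` -/
theorem gtB (n : ℕ) (K C1 C2 e : ℝ) (hC1 : 0 < C1) (he : 0 < e) : ∃ Ms : ℝ,
    ∀ (D : Dat n) (lam rs : ℝ), D.Ok K lam C1 rs → D.Bas → D.C2 = C2 → Ms ≤ D.M → Ms ≤ D.f0 →
      ∀ (g : EE n → ℝ≥0∞) (P Q : EE n → ℝ), Measurable g → Measurable Q → (∀ y, 0 ≤ Q y) →
        (∀ y, g y ≠ 0 → y ∈ D.Om ∧ 80 / D.f0 ≤ D.U y ∧ ∀ x ∈ D.Om, ∀ a, 1 ≤ a →
          D.U y ≤ a * max (D.U x) (1 / D.f0) → P x ≤ 2 * a * Q y) →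
        ∫⁻ x in D.Cut, ENNReal.ofReal (P x * D.dens x) * ∫⁻ y in ball (ft D.v x) 1, g y ≤
          ENNReal.ofReal e * ∫⁻ y in {y | |dd D.v y| ≤ 2}, ENNReal.ofReal (Q y * D.dens y) * g y := by
  obtain ⟨M0, h0⟩ := ft_shallow n C2
  obtain ⟨C, hC, h1⟩ := Z_le_Z n
  obtain ⟨C', hC', h2⟩ := U_le_U n
  set κ : EE n → ℝ≥0∞ := fun p => ENNReal.ofReal ((1 + ‖p‖) ^ (-((n + 1 : ℕ) : ℝ))) with hκ
  have mκ : Measurable κ := by fun_prop
  have hI : ∫⁻ p, κ p ≠ ⊤ := (finite_integral_one_add_norm (by simp)).ne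
  set δ := e / ((∫⁻ p, κ p).toReal + 1) with hδ
  have δ0 : 0 < δ := by positivity
  set m : ℝ := 10 + 2 * K + (n + 1 : ℕ) with hm
  set A := 2 * C' * 16 * Real.exp 4 * 8 ^ 4 * C ^ 2 * K ^ 2 with hA
  obtain ⟨T, hT⟩ : ∃ T : ℝ, ∀ s, T ≤ s → A * (s ^ m * Real.exp (-2 * s)) ≤ δ := by
    have := (tendsto_rpow_mul_exp_neg_mul_atTop_nhds_zero m 2 two_pos).const_mul A
    rw [mul_zero] at this
    exact eventually_atTop.1 (this.eventually_le_const δ0)
  refine ⟨max M0 (Real.exp (2 * T / C1)), fun D lam rs O B e2 hM hf g P Q mg mQ Q0 hg => ?_⟩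
  have hv := B.sol
  have K1 := O.K1
  have mS := meas_band hv 2
  have mg' : Measurable ({y | |dd D.v y| ≤ 2}.indicator
      fun y => ENNReal.ofReal (Q y * D.dens y) * g y) :=
    ((mQ.mul (O.meas_dens B)).ennreal_ofReal.mul mg).indicator mS
  refine (charge_ker (κ := fun p => ENNReal.ofReal δ * κ p) (mκ.const_mul _) mg'
    fun x hx => ?_).trans ?_
  · rw [← lintegral_const_mul _ mg]
    refine le_trans (setLIntegral_mono' measurableSet_ball fun y hy => ?_)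
      (setLIntegral_le_lintegral (ball (ft D.v x) 1) _)
    by_cases hy0 : g y = 0
    · rw [hy0, mul_zero]; exact zero_le
    obtain ⟨y1, y2, y3⟩ := hg y hy0
    have xO : x ∈ D.Om := hx.1.1
    have a1 := mem_ball_iff_norm.1 hy
    have a2 : |dd D.v y| ≤ 2 := by
      have b1 := h0 D.v D.M D.ρm O.pos (le_of_max_le_left hM) x (e2 ▸ xO)
      have b2 := hv.abs_dd_sub_le y (ft D.v x)
      linarith [abs_sub_abs_le_abs_sub (dd D.v y) (dd D.v (ft D.v x))]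
    set s := |dd D.v x| + 2 with hs
    set l := 1 + ‖x - y‖ with hl
    have l1 : 1 ≤ l := le_add_of_nonneg_right (norm_nonneg _)
    have a3 : l ≤ s := by
      have := norm_sub_le_norm_sub_add_norm_sub x (ft D.v x) y
      rw [norm_sub_rev (ft D.v x)] at this
      linarith [norm_ft hv x]
    have a4 : T ≤ s := by
      have b1 : Real.exp (2 * T / C1) ≤ min (1 / ph0 D.v x) D.f0 :=
        le_min ((le_of_max_le_right hM).trans (B.rho xO).le) (le_of_max_le_right hf)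
      have b2 := Real.log_le_log (Real.exp_pos _) b1
      rw [Real.log_exp, div_le_iff₀ hC1] at b2
      linarith [O.Tlo x hx.1, hx.2]
    have a5 : psi D.v x ^ 2 ≤ 16 * Real.exp 4 * Real.exp (-2 * s) := by
      have b1 := hv.psi_le_exp x
      have b2 : Real.exp (-(√2 * |dd D.v x|)) ≤ Real.exp (-|dd D.v x|) := Real.exp_le_exp.2 (by
        nlinarith [abs_nonneg (dd D.v x), Real.one_le_sqrt.2 (one_le_two (α := ℝ))])
      calc _ ≤ (4 * Real.exp (-|dd D.v x|)) ^ 2 := by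
            have := (hv.psi_pos x).le
            gcongr; linarith
        _ = _ := by
            rw [mul_pow, mul_assoc, ← Real.exp_add, ← Real.exp_nat_mul, hs]; norm_num; ring
    have a6 : 1 ≤ 8 ^ 2 * psi D.v y := by
      have b1 := hv.exp_le_psi y
      have b2 : √2 ≤ 2 := by rw [Real.sqrt_le_left (by norm_num)]; norm_num
      have b3 : Real.exp (-4) ≤ Real.exp (-(√2 * |dd D.v y|)) :=
        Real.exp_le_exp.2 (by nlinarith [abs_nonneg (dd D.v y), Real.sqrt_nonneg 2])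
      have b4 : Real.exp 4 ≤ 8 ^ 2 := by
        have c1 := Real.exp_one_lt_d9
        have c2 : Real.exp 1 ^ 2 ≤ 8 := by nlinarith [Real.exp_pos 1]
        rw [show (4 : ℝ) = (4 : ℕ) * 1 by norm_num, Real.exp_nat_mul,
          show Real.exp 1 ^ 4 = (Real.exp 1 ^ 2) ^ 2 by ring]
        gcongr
      have b5 : Real.exp 4 * Real.exp (-4) = 1 := by rw [← Real.exp_add]; simp
      nlinarith [Real.exp_pos (-4)]
    have z0 := (O.Z_mem B x).1
    have z1 := (O.Z_mem B y).1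
    have w0 := O.Wpos x
    have w1 := O.Wpos y
    have l0 : 0 < l := by linarith
    have q0 := Q0 y
    have d0 : ∀ z, 0 ≤ D.dens z := fun z => by unfold Dat.dens; positivity
    have d1 := d0 y
    have a7 : P x * D.dens x * l ^ (n + 1) ≤ δ * (Q y * D.dens y) := by
      have b1 : l ^ 2 * (l ^ 4) ^ 2 * (l ^ K) ^ 2 * l ^ (n + 1) ≤ s ^ m := by
        refine le_trans (le_of_eq ?_) (Real.rpow_le_rpow l0.le a3 (by positivity))
        rw [hm, Real.rpow_add l0, Real.rpow_add l0, Real.rpow_natCast, mul_comm 2 K,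
          Real.rpow_mul l0.le, Real.rpow_two, show (10 : ℝ) = (10 : ℕ) by norm_num,
          Real.rpow_natCast]
        ring
      have b2 : P x ≤ 2 * (C' * l ^ 2) * Q y := y3 x xO _
        (one_le_mul_of_one_le_of_one_le hC' (one_le_pow₀ l1)) (h2 D K lam C1 rs O B x xO y y1)
      have b3 : D.dens x ≤ 16 * Real.exp 4 * Real.exp (-2 * s) * (C * l ^ 4 * D.Z y) ^ 2 *
          (K * l ^ K * D.W y) ^ 2 := by
        unfold Dat.dens
        gcongr
        · exact h1 D K lam C1 rs O B x xO y y1 y2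
        · exact O.Wcmp x y
      calc _ ≤ 2 * (C' * l ^ 2) * Q y * (16 * Real.exp 4 * Real.exp (-2 * s) *
            (C * l ^ 4 * D.Z y) ^ 2 * (K * l ^ K * D.W y) ^ 2) * l ^ (n + 1) *
            (8 ^ 2 * psi D.v y) ^ 2 := by
            refine le_trans ?_ (le_mul_of_one_le_right (by positivity) (one_le_pow₀ a6))
            exact mul_le_mul_of_nonneg_right (mul_le_mul b2 b3 (d0 x) (by positivity))
              (by positivity)
        _ = A * (l ^ 2 * (l ^ 4) ^ 2 * (l ^ K) ^ 2 * l ^ (n + 1) * Real.exp (-2 * s)) *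
            (Q y * D.dens y) := by
            rw [hA, Dat.dens]; ring
        _ ≤ A * (s ^ m * Real.exp (-2 * s)) * (Q y * D.dens y) := by gcongr
        _ ≤ _ := by gcongr; exact hT s a4
    rw [indicator_of_mem (show y ∈ {y | |dd D.v y| ≤ 2} from a2), ← mul_assoc]
    refine mul_le_mul_left ?_ _
    simp only [hκ]
    rw [← ENNReal.ofReal_mul δ0.le, ← ENNReal.ofReal_mul (by positivity), Real.rpow_neg l0.le,
      Real.rpow_natCast]
    refine ENNReal.ofReal_le_ofReal ?_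
    rw [mul_right_comm, ← div_eq_mul_inv, le_div_iff₀ (by positivity)]
    exact a7
  · rw [lintegral_indicator mS, lintegral_const_mul _ mκ]
    refine mul_le_mul_left ?_ _
    rw [← ENNReal.ofReal_toReal hI, ← ENNReal.ofReal_mul δ0.le]
    refine ENNReal.ofReal_le_ofReal ?_
    rw [hδ, div_mul_eq_mul_div, div_le_iff₀ (by positivity)]
    gcongr
    linarith


end

end Crest.Agent.N067.T
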