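import Crest.Agent.N067.Y.Base
import Crest.Agent.N067.M.TLow
import Crest.Agent.N067.M.Chg
import Crest.Agent.N067.F.Flat1
import Crest.Agent.N067.U.Ue

-- ▼ part N067/T/Prof
section

/-! # T/Prof (helper69): the model profile `y^(5/2) / √(1 + f² y)` is a `Prof` -/

set_option autoImplicit false

open Topology Filter Set
open scoped ContDiff

namespace Crest.Agent.N067.T

open Crest.Agent.N067.Y

noncomputable section

/-- the model profile -/
def Ff (f y : ℝ) : ℝ := y ^ (5 / 2 : ℝ) / √(1 + f ^ 2 * y)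

theorem Ff_pos (f : ℝ) {y : ℝ} (hy : 0 < y) : 0 < Ff f y := by unfold Ff; positivity

theorem Ff_nonneg (f : ℝ) {y : ℝ} (hy : 0 ≤ y) : 0 ≤ Ff f y := by unfold Ff; positivity

theorem hd_Ff (f : ℝ) {y : ℝ} (hy : 0 < y) :
    HasDerivAt (Ff f) (Ff f y * (5 / (2 * y) - f ^ 2 / (2 * (1 + f ^ 2 * y)))) y := by
  have h0 : 0 < 1 + f ^ 2 * y := by positivity
  have h1 := Real.hasDerivAt_rpow_const (x := y) (p := 5 / 2) (Or.inl hy.ne')
  have h2 := (((hasDerivAt_id' y).const_mul (f ^ 2)).const_add 1).sqrt h0.ne'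
  have h3 := h1.div h2 (Real.sqrt_pos.2 h0).ne'
  refine h3.congr_deriv ?_
  have h4 := Real.sqrt_pos.2 h0
  have h5 := Real.sq_sqrt h0.le
  rw [Ff, Real.rpow_sub_one hy.ne']
  set s := √(1 + f ^ 2 * y)
  rw [← h5]
  field_simp

/-- the model profile as a `Prof` -/
def profF (f : ℝ) : Prof where
  F := Ff f
  sm := by
    intro y hy
    have hy' : (0 : ℝ) < y := hy
    have h0 : 0 < 1 + f ^ 2 * y := by positivity
    refine ContDiffAt.contDiffWithinAt ?_
    exact (contDiffAt_id.rpow_const_of_ne hy'.ne').div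
      ((contDiffAt_const.add (contDiffAt_const.mul contDiffAt_id)).sqrt h0.ne')
      (Real.sqrt_pos.2 h0).ne'
  zero := by simp [Ff]
  pos := fun y hy => Ff_pos f hy
  lo := fun y hy => by
    have h0 : 0 < 1 + f ^ 2 * y := by positivity
    have h1 := Ff_pos f hy
    rw [(hd_Ff f hy).deriv]
    have : y * (Ff f y * (5 / (2 * y) - f ^ 2 / (2 * (1 + f ^ 2 * y)))) =
        2 * Ff f y + Ff f y / (2 * (1 + f ^ 2 * y)) := by field_simp; ring
    rw [this]
    have : 0 ≤ Ff f y / (2 * (1 + f ^ 2 * y)) := by positivity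
    linarith
  hi := fun y hy => by
    have h0 : 0 < 1 + f ^ 2 * y := by positivity
    have h1 := Ff_pos f hy
    rw [(hd_Ff f hy).deriv]
    have : y * (Ff f y * (5 / (2 * y) - f ^ 2 / (2 * (1 + f ^ 2 * y)))) =
        5 / 2 * Ff f y - Ff f y * (f ^ 2 * y) / (2 * (1 + f ^ 2 * y)) := by field_simp
    rw [this]
    have : 0 ≤ Ff f y * (f ^ 2 * y) / (2 * (1 + f ^ 2 * y)) := by positivity
    linarith
  cv := fun y hy => by
    have h0 : 0 < 1 + f ^ 2 * y := by positivity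
    have h1 := Ff_pos f hy
    have e : deriv (Ff f) =ᶠ[𝓝 y]
        fun y => Ff f y * (5 / (2 * y) - f ^ 2 / (2 * (1 + f ^ 2 * y))) := by
      filter_upwards [Ioi_mem_nhds hy] with z hz using (hd_Ff f hz).deriv
    have d1 := (hasDerivAt_const y (5 : ℝ)).div ((hasDerivAt_id' y).const_mul 2) (by positivity)
    have d2 := (hasDerivAt_const y (f ^ 2)).div
      ((((hasDerivAt_id' y).const_mul (f ^ 2)).const_add 1).const_mul 2) (by positivity)
    have d3 := (hd_Ff f hy).mul (d1.sub d2)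
    rw [e.deriv_eq]
    erw [d3.deriv]
    simp only [Pi.sub_apply, Pi.div_apply]
    have : y ^ 2 * (Ff f y * (5 / (2 * y) - f ^ 2 / (2 * (1 + f ^ 2 * y))) *
        (5 / (2 * y) - f ^ 2 / (2 * (1 + f ^ 2 * y))) + Ff f y *
        ((0 * (2 * y) - 5 * (2 * 1)) / (2 * y) ^ 2 -
          (0 * (2 * (1 + f ^ 2 * y)) - f ^ 2 * (2 * (f ^ 2 * 1))) / (2 * (1 + f ^ 2 * y)) ^ 2)) =
        Ff f y + Ff f y * ((11 + 12 * (f ^ 2 * y) + 4 * (f ^ 2 * y) ^ 2) /
          (4 * (1 + f ^ 2 * y) ^ 2)) := by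
      field_simp; ring
    rw [this]
    have : 0 ≤ Ff f y * ((11 + 12 * (f ^ 2 * y) + 4 * (f ^ 2 * y) ^ 2) /
          (4 * (1 + f ^ 2 * y) ^ 2)) := by positivity
    linarith

@[simp] theorem profF_F (f : ℝ) : (profF f).F = Ff f := rfl

/-- `F y ≤ y^(5/2)` -/
theorem Ff_le (f : ℝ) {y : ℝ} (hy : 0 ≤ y) : Ff f y ≤ y ^ (5 / 2 : ℝ) :=
  div_le_self (by positivity) (Real.one_le_sqrt.2 (by nlinarith [sq_nonneg f]))

/-- `F (a²) ≤ a⁵` -/
theorem Ff_sq_le (f : ℝ) {a : ℝ} (ha : 0 ≤ a) : Ff f (a ^ 2) ≤ a ^ 5 := by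
  refine (Ff_le f (sq_nonneg a)).trans (le_of_eq ?_)
  rw [← Real.rpow_natCast, ← Real.rpow_mul ha, ← Real.rpow_natCast]
  norm_num

/-- `f F y ≤ y²` -/
theorem mul_Ff_le (f : ℝ) {y : ℝ} (hy : 0 ≤ y) : f * Ff f y ≤ y ^ 2 := by
  have h0 : 0 < 1 + f ^ 2 * y := by positivity
  have h1 : y ^ (5 / 2 : ℝ) = y ^ 2 * √y := by
    rw [Real.sqrt_eq_rpow, ← Real.rpow_natCast, ← Real.rpow_add' hy (by norm_num)]
    norm_num
  have h2 : f * √y ≤ √(1 + f ^ 2 * y) := by
    refine Real.le_sqrt_of_sq_le ?_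
    rw [mul_pow, Real.sq_sqrt hy]; linarith
  rw [Ff, h1, ← mul_div_assoc, div_le_iff₀ (Real.sqrt_pos.2 h0)]
  calc f * (y ^ 2 * √y) = y ^ 2 * (f * √y) := by ring
    _ ≤ _ := by gcongr

end

end Crest.Agent.N067.T
end

-- ▼ part N067/T/Core
section

/-! # T/Core (helper69): bounded depth and `ph0 ≥ c` is paid by `t Z² W²` on the band -/

set_option autoImplicit false

open MeasureTheory Laplacian InnerProductSpace Topology Filter Set Metric
open scoped RealInnerProductSpace Gradient ContDiff ENNReal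

namespace Crest.Agent.N067.T

open Crest.Agent.R077 Crest.Agent.N067.V Crest.Agent.N067.Y Crest.Agent.N067.M

noncomputable section

variable {n : ℕ}

theorem ph0_bd (n : ℕ) : ∃ C : ℝ, 0 ≤ C ∧ ∀ v : EE n → ℝ, Sol v → ∀ x, ph0 v x ≤ C := by
  obtain ⟨C, h⟩ := exists_phi_bd n
  exact ⟨C, C.2, fun v hv x => max_le ((h v hv).1 x) ((h _ (sol_ng hv)).1 x)⟩


theorem ph0_cmp (n : ℕ) : ∃ C : ℝ, 1 ≤ C ∧ ∀ v : EE n → ℝ, Sol v → Stable v → ∀ x y,
    ph0 v y ≤ C * (1 + ‖x - y‖) ^ 2 * ph0 v x := by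
  obtain ⟨k0, hk0, h0⟩ := flatU n
  obtain ⟨C1, hC1, h1⟩ := flat_near n
  obtain ⟨C2, hC2, h2⟩ := ph0_bd n
  have q : 0 ≤ C2 / k0 := by positivity
  refine ⟨1 + C1 + C2 / k0, by linarith, fun v hv hs x y => ?_⟩
  have p0 := ph0_nonneg hv x
  have l1 : 1 ≤ (1 + ‖x - y‖) ^ 2 := one_le_pow₀ (le_add_of_nonneg_right (norm_nonneg _))
  rcases le_total (ph0 v x) k0 with hx | hx
  · have := h1 v (ph0 v x / 2) x hv ((flat_iff hv (by positivity)).2 (by linarith))
      (h0 v hv hs x hx) y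
    rw [flat_iff hv (by positivity), norm_sub_rev] at this
    have : 0 ≤ (1 + C2 / k0) * (1 + ‖x - y‖) ^ 2 * ph0 v x := by positivity
    linarith
  · calc ph0 v y ≤ C2 / k0 * 1 * k0 := by field_simp; exact h2 v hv y
      _ ≤ (1 + C1 + C2 / k0) * (1 + ‖x - y‖) ^ 2 * ph0 v x := by gcongr; linarith

theorem near_zero (n : ℕ) (D : ℝ) : ∃ R : ℝ, 0 < R ∧ ∀ v : EE n → ℝ, Sol v → ∀ x,
    |dd v x| ≤ D → ∃ y, v y = 0 ∧ ‖x - y‖ < R := by
  have h1 := Real.tanh_lt_one (D / √2)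
  obtain ⟨R, hR, h⟩ := ballS n ((1 - Real.tanh (D / √2)) / 2) (by linarith)
  refine ⟨R, hR, fun v hv x hx => ?_⟩
  by_contra hc
  push Not at hc
  have hz : ∀ y ∈ ball x R, v y ≠ 0 := fun y hy h0 =>
    absurd (mem_ball_iff_norm'.1 hy) (not_lt.2 (hc y h0))
  have key : ∀ w : EE n → ℝ, Sol w → (∀ y ∈ ball x R, w y ≠ 0) → 0 < w x → dd w x ≤ D →
      False := by
    intro w hw hz h0 hd
    have := h w hw.isSol x fun y hy => by
      by_contra hy0
      obtain ⟨z, hz1, hz2⟩ := (convex_ball x R).isPreconnected.intermediate_value hy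
        (mem_ball_self hR) hw.sm.continuous.continuousOn ⟨not_lt.1 hy0, h0.le⟩
      exact hz z hz1 hz2
    have h2 : w x ≤ Real.tanh (D / √2) := by
      rw [hw.eq_tanh x]
      exact tanh_strictMono.monotone (div_le_div_of_nonneg_right hd sqrt2_pos.le)
    linarith
  rcases (hz x (mem_ball_self hR)).lt_or_gt with h0 | h0
  · exact key _ (sol_ng hv) (fun y hy => neg_ne_zero.2 (hz y hy)) (neg_pos.2 h0)
      (by rw [dd_ng hv]; exact (neg_le_abs _).trans hx)
  · exact key v hv hz h0 ((le_abs_self _).trans hx)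

theorem band_of_zero {v : EE n → ℝ} (hv : Sol v) {y y' : EE n} (h : v y = 0) :
    |dd v y'| ≤ ‖y' - y‖ := by
  have := hv.abs_dd_sub_le y' y
  rwa [show dd v y = 0 by simp [dd, h], sub_zero] at this

theorem meas_band {v : EE n → ℝ} (hv : Sol v) (T : ℝ) : MeasurableSet {x | |dd v x| ≤ T} :=
  (isClosed_le hv.dd_sm.continuous.abs continuous_const).measurableSet

/-- **CORE** -/
theorem core (n : ℕ) (D c K : ℝ) (hc : 0 < c) (hK : 0 ≤ K) : ∃ c' A : ℝ, 0 < c' ∧ 0 < A ∧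
    ∀ (v W Z : EE n → ℝ) (zc : ℝ), Sol v → Stable v → Measurable W → Measurable Z →
      (∀ x, 0 ≤ W x) → (∀ x y, W x ≤ K * (1 + ‖x - y‖) ^ K * W y) → 0 ≤ zc →
      (∀ y, |dd v y| ≤ 1 → c' ≤ ph0 v y → zc ≤ Z y) →
      ∫⁻ x in {x | |dd v x| ≤ D ∧ c ≤ ph0 v x}, ENNReal.ofReal (zc ^ 2 * W x ^ 2) ≤
        ENNReal.ofReal A *
          ∫⁻ x in {x | |dd v x| ≤ 1}, ENNReal.ofReal (tt v x * Z x ^ 2 * W x ^ 2) := by
  obtain ⟨R, hR, h1⟩ := near_zero n D
  obtain ⟨C, hC, h2⟩ := ph0_cmp n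
  obtain ⟨C', hC', h3⟩ := tlo n 1
  obtain ⟨A, hA, h4⟩ := charge n one_pos
  set c' := c / (C * (R + 2) ^ 2) with hc'
  have c0 : 0 < c' := by positivity
  set τ := Real.exp (-(C' / c') - C') with hτ
  have τ0 : 0 < τ := Real.exp_pos _
  set B := (K * (R + 2) ^ K) ^ 2 * (R + 2) ^ (n + 1) / τ + 1 with hB
  have B0 : 0 < B := by positivity
  refine ⟨c', A * B, c0, by positivity, fun v W Z zc hv hs mW mZ W0 hW z0 hZ => ?_⟩
  have mg : Measurable fun x => tt v x * Z x ^ 2 * W x ^ 2 :=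
    (hv.continuous_tt.measurable.mul (mZ.pow_const 2)).mul (mW.pow_const 2)
  refine (h4 _ _ _ (fun x => B * (tt v x * Z x ^ 2 * W x ^ 2)) (meas_band hv 1) (mg.const_mul B)
    fun x hx => ?_).trans (le_of_eq ?_)
  · obtain ⟨y, hy0, hy⟩ := h1 v hv x hx.1
    refine ⟨y, fun y' hy' => ?_⟩
    have a1 := mem_ball_iff_norm.1 hy'
    have a2 : |dd v y'| ≤ 1 := (band_of_zero hv hy0).trans a1.le
    have a3 : 1 + ‖x - y'‖ ≤ R + 2 := by
      have := norm_sub_le_norm_sub_add_norm_sub x y y'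
      rw [norm_sub_rev y y'] at this
      linarith
    have a4 : c' ≤ ph0 v y' := by
      rw [hc', div_le_iff₀ (by positivity)]
      have b1 := h2 v hv hs y' x
      rw [norm_sub_rev] at b1
      have b2 := ph0_nonneg hv y'
      calc c ≤ C * (1 + ‖x - y'‖) ^ 2 * ph0 v y' := hx.2.trans b1
        _ ≤ C * (R + 2) ^ 2 * ph0 v y' := by gcongr
        _ = _ := by ring
    have a5 : τ ≤ tt v y' := by
      refine le_trans (Real.exp_le_exp.2 ?_) (h3 v hv y' (c0.trans_le a4) a2)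
      have : C' / ph0 v y' ≤ C' / c' := by gcongr
      linarith
    have a6 : W x ≤ K * (R + 2) ^ K * W y' := by
      have := W0 y'
      refine (hW x y').trans ?_
      gcongr
    refine ⟨a2, ?_⟩
    have w1 := W0 x
    have w2 := W0 y'
    calc zc ^ 2 * W x ^ 2 * (1 + ‖x - y'‖) ^ (n + 1)
        ≤ Z y' ^ 2 * (K * (R + 2) ^ K * W y') ^ 2 * (R + 2) ^ (n + 1) := by
          gcongr; exact hZ y' a2 a4
      _ = (B - 1) * (τ * Z y' ^ 2 * W y' ^ 2) := by rw [hB]; field_simp; ring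
      _ ≤ B * (tt v y' * Z y' ^ 2 * W y' ^ 2) := by gcongr; linarith
  · simp only [ENNReal.ofReal_mul B0.le, ENNReal.ofReal_mul hA.le]
    rw [lintegral_const_mul _ mg.ennreal_ofReal, mul_assoc]

end

end Crest.Agent.N067.T
end

-- ▼ part N067/T/Mid

/-! # T/Mid (helper69): the SSY part of the gain -/

set_option autoImplicit false

open MeasureTheory Laplacian InnerProductSpace Topology Filter Set Metric
open scoped RealInnerProductSpace Gradient ContDiff ENNReal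

namespace Crest.Agent.N067.T

open Crest.Agent.R077 Crest.Agent.N067.V Crest.Agent.N067.Y Crest.Agent.N067.M

noncomputable section

variable {n : ℕ}

theorem ofReal_int_le {α : Type*} [MeasurableSpace α] {μ : Measure α} {f : α → ℝ}
    (h : ∀ x, 0 ≤ f x) : ENNReal.ofReal (∫ x, f x ∂μ) ≤ ∫⁻ x, ENNReal.ofReal (f x) ∂μ := by
  rw [← Real.enorm_of_nonneg (integral_nonneg h)]
  refine (enorm_integral_le_lintegral_enorm _).trans (le_of_eq (lintegral_congr fun x => ?_))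
  exact Real.enorm_of_nonneg (h x)

theorem psi_band {v : EE n → ℝ} (hv : Sol v) {x : EE n} (hx : |dd v x| ≤ 1) :
    1 ≤ 8 * psi v x := by
  have h1 := hv.exp_le_psi x
  have h2 : √2 ≤ 2 := by rw [Real.sqrt_le_left (by norm_num)]; norm_num
  have h3 : Real.exp (-2) ≤ Real.exp (-(√2 * |dd v x|)) :=
    Real.exp_le_exp.2 (by nlinarith [abs_nonneg (dd v x), Real.sqrt_nonneg 2])
  have h4 : Real.exp 2 ≤ 8 := by
    have := Real.exp_one_lt_d9
    rw [show (2 : ℝ) = 1 + 1 by norm_num, Real.exp_add]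
    nlinarith [Real.exp_pos 1]
  have h5 : Real.exp 2 * Real.exp (-2) = 1 := by rw [← Real.exp_add]; simp
  nlinarith [Real.exp_pos (-2)]

/-- **MID**.  `om` is the weight `W²` with `r0` replaced by `max r0 f0`, `lw = 1 / ϱ`. -/
theorem mid (hX : X5Stmt n) {C0 : ℝ} (hC0 : 0 ≤ C0) (hT : ∀ v : EE n → ℝ, Pos v → Stable v →
    ∀ x, |dd v x| ≤ 1 → tt v x ≤ C0 * ph0 v x ^ 2) {b : ℝ} (hb0 : 0 ≤ b) (hb : b < 1) :
    ∃ e0 lam : ℝ, 0 < e0 ∧ 0 < lam ∧ ∀ K e : ℝ, 0 ≤ K → 0 < e → ∃ e' : ℝ, 0 < e' ∧ ∀ L : ℝ,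
    ∃ C : ℝ, 0 ≤ C ∧ ∀ (v W om Z lw : EE n → ℝ) (f0 Z0 : ℝ), Pos v → Stable v → Wt lam om →
      Measurable W → Measurable Z → 0 < f0 → (∀ x, 0 ≤ lw x) → (∀ x, om x ≤ W x ^ 2) →
      (∀ x, lw x ≤ 1 / f0 → W x ^ 2 ≤ K * om x) →
      (∀ x, ‖∇ om x‖ ≤ K * min (lw x) (1 / f0) * om x) →
      (∀ y, |dd v y| ≤ 1 → L ≤ f0 * ph0 v y → (Z0 * f0 * ph0 v y) ^ 2 ≤ e' * Z y ^ 2) →
      (∫⁻ x in {x | e0 ≤ tt v x}, ENNReal.ofReal (Z0 ^ 2 * f0 ^ 3 * Ff f0 (pb b v x) * W x ^ 2) ≤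
        ENNReal.ofReal e' *
          ∫⁻ x in {x | |dd v x| ≤ 1}, ENNReal.ofReal (tt v x * Z x ^ 2 * W x ^ 2)) →
      ∫⁻ x in {x | |dd v x| ≤ 1}, ENNReal.ofReal (Z0 ^ 2 * f0 ^ 3 * Ff f0 (tt v x) * W x ^ 2) ≤
        ENNReal.ofReal e *
          (∫⁻ x in {x | |dd v x| ≤ 1}, ENNReal.ofReal (tt v x * Z x ^ 2 * W x ^ 2)) +
        ENNReal.ofReal C * ∫⁻ x, ENNReal.ofReal
          (Z0 ^ 2 * f0 ^ 3 * min (lw x) (1 / f0) ^ 5 * psi v x ^ 2 * W x ^ 2) := by
  obtain ⟨e0, lam, C5, he0, hlam, hC5, h5⟩ := hX b hb0 hb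
  refine ⟨e0, lam, he0, hlam, fun K e hK he => ?_⟩
  set A := K * 8 ^ 6 * C5 with hA
  have A0 : 0 ≤ A := by positivity
  obtain ⟨e', he', e1⟩ : ∃ e' : ℝ, 0 < e' ∧ (C0 + A) * e' ≤ e := by
    refine ⟨e / (C0 + A + 1), by positivity, ?_⟩
    calc _ = e * ((C0 + A) / (C0 + A + 1)) := by ring
      _ ≤ e * 1 := by gcongr; exact div_le_one_of_le₀ (by linarith) (by positivity)
      _ = _ := mul_one _
  refine ⟨e', he', fun L => ⟨64 * (C0 * L ^ 2) ^ 2 + A * K ^ 5, by positivity,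
    fun v W om Z lw f0 Z0 hv hs hw mW mZ hf l0 w1 w2 w3 hZ hB => ?_⟩⟩
  have h := hv.toSol
  set g : EE n → ℝ := fun x => tt v x * Z x ^ 2 * W x ^ 2 with hg
  set r : EE n → ℝ := fun x => Z0 ^ 2 * f0 ^ 3 * min (lw x) (1 / f0) ^ 5 * psi v x ^ 2 * W x ^ 2
    with hr
  set s : EE n → ℝ := fun x => Ff f0 (pb b v x * tt v x) * om x with hs'
  have m0 : ∀ x, 0 ≤ min (lw x) (1 / f0) := fun x => le_min (l0 x) (by positivity)
  have g0 : ∀ x, 0 ≤ g x := fun x => by have := h.tt_nonneg x; simp only [hg]; positivity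
  have r0 : ∀ x, 0 ≤ r x := fun x => by have := m0 x; simp only [hr]; positivity
  have s0 : ∀ x, 0 ≤ s x := fun x =>
    mul_nonneg (Ff_nonneg _ (mul_nonneg (pb_pos h b x).le (h.tt_nonneg x))) (hw.pos x).le
  have mg : Measurable g := (h.continuous_tt.measurable.mul (mZ.pow_const 2)).mul (mW.pow_const 2)
  have is : Integrable s := integ_TT h hb0 (profF f0) hw
  set P := Z0 ^ 2 * f0 ^ 3 with hP
  have P0 : 0 ≤ P := by positivity
  have pt : ∀ x, |dd v x| ≤ 1 → P * Ff f0 (tt v x) * W x ^ 2 ≤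
      C0 * e' * g x + (K * 8 ^ 6 * P * s x + 64 * (C0 * L ^ 2) ^ 2 * r x) := by
    intro x hx
    have a1 := psi_band h hx
    have t0 := h.tt_nonneg x
    have F0 := Ff_nonneg f0 t0
    have g1 : 0 ≤ C0 * e' * g x := by have := g0 x; positivity
    have s1 : 0 ≤ K * 8 ^ 6 * P * s x := by have := s0 x; positivity
    have r1 : 0 ≤ 64 * (C0 * L ^ 2) ^ 2 * r x := by have := r0 x; positivity
    rcases le_total (lw x) (1 / f0) with hl | hl
    · have a2 : psi v x ^ 6 * Ff f0 (tt v x) ≤ Ff f0 (pb b v x * tt v x) :=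
        psi6_le h hb0 hb (profF f0) x t0
      have a3 : (1 : ℝ) ≤ (8 * psi v x) ^ 6 := one_le_pow₀ a1
      have o0 := (hw.pos x).le
      calc _ ≤ P * ((8 * psi v x) ^ 6 * Ff f0 (tt v x)) * (K * om x) := by
            gcongr
            · exact le_mul_of_one_le_left F0 a3
            · exact w2 x hl
        _ = K * 8 ^ 6 * P * (psi v x ^ 6 * Ff f0 (tt v x) * om x) := by ring
        _ ≤ K * 8 ^ 6 * P * s x := by simp only [hs']; gcongr
        _ ≤ _ := by linarith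
    · have a2 : P * Ff f0 (tt v x) * W x ^ 2 ≤ (Z0 * f0 * tt v x) ^ 2 * W x ^ 2 := by
        calc _ = Z0 ^ 2 * f0 ^ 2 * (f0 * Ff f0 (tt v x)) * W x ^ 2 := by rw [hP]; ring
          _ ≤ Z0 ^ 2 * f0 ^ 2 * tt v x ^ 2 * W x ^ 2 := by gcongr; exact mul_Ff_le f0 t0
          _ = _ := by ring
      have a3 := hT v hv hs x hx
      have p0 := ph0_nonneg h x
      rcases le_total L (f0 * ph0 v x) with hL | hL
      · refine a2.trans ?_
        calc _ = (Z0 * f0) ^ 2 * tt v x * (tt v x * W x ^ 2) := by ring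
          _ ≤ (Z0 * f0) ^ 2 * (C0 * ph0 v x ^ 2) * (tt v x * W x ^ 2) := by gcongr
          _ = C0 * (Z0 * f0 * ph0 v x) ^ 2 * (tt v x * W x ^ 2) := by ring
          _ ≤ C0 * (e' * Z x ^ 2) * (tt v x * W x ^ 2) := by gcongr; exact hZ x hx hL
          _ = C0 * e' * g x := by simp only [hg]; ring
          _ ≤ _ := by linarith
      · refine a2.trans ?_
        have a4 : f0 ^ 2 * tt v x ≤ C0 * L ^ 2 := by
          calc _ ≤ f0 ^ 2 * (C0 * ph0 v x ^ 2) := by gcongr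
            _ = C0 * (f0 * ph0 v x) ^ 2 := by ring
            _ ≤ _ := by gcongr
        have a5 : (1 : ℝ) ≤ (8 * psi v x) ^ 2 := one_le_pow₀ a1
        calc _ = (f0 ^ 2 * tt v x) ^ 2 * 1 * (Z0 ^ 2 * (1 / f0) ^ 2 * W x ^ 2) := by field_simp
          _ ≤ (C0 * L ^ 2) ^ 2 * (8 * psi v x) ^ 2 * (Z0 ^ 2 * (1 / f0) ^ 2 * W x ^ 2) := by gcongr
          _ = 64 * (C0 * L ^ 2) ^ 2 * r x := by
              simp only [hr, min_eq_right hl, hP]; field_simp; ring
          _ ≤ _ := by linarith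
  set G := ∫⁻ x in {x | |dd v x| ≤ 1}, ENNReal.ofReal (g x) with hG
  set R := ∫⁻ x, ENNReal.ofReal (r x) with hR
  have b1 : ENNReal.ofReal (P * BAD b v (profF f0) om e0) ≤ ENNReal.ofReal e' * G := by
    refine le_trans ?_ hB
    rw [BAD, ← integral_const_mul]
    refine (ofReal_int_le fun x => mul_nonneg P0 (mul_nonneg (Ff_nonneg _ (pb_pos h b x).le)
      (hw.pos x).le)).trans (lintegral_mono fun x => ENNReal.ofReal_le_ofReal ?_)
    have := Ff_nonneg f0 (pb_pos h b x).le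
    rw [← mul_assoc]
    gcongr
    exact w1 x
  have b2 : ENNReal.ofReal (P * LAM v (profF f0) om) ≤ ENNReal.ofReal (K ^ 5) * R := by
    rw [LAM, ← integral_const_mul, hR, ← lintegral_const_mul' _ _ ENNReal.ofReal_ne_top]
    refine (ofReal_int_le fun x => mul_nonneg P0 (mul_nonneg (Ff_nonneg _ (sq_nonneg _))
      (mul_nonneg (sq_nonneg _) (hw.pos x).le))).trans (lintegral_mono fun x => ?_)
    rw [← ENNReal.ofReal_mul (by positivity)]
    refine ENNReal.ofReal_le_ofReal ?_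
    have o0 := hw.pos x
    have a1 : ‖∇ om x‖ / om x ≤ K * min (lw x) (1 / f0) := (div_le_iff₀ o0).2 (w3 x)
    have a2 := Ff_sq_le f0 (a := ‖∇ om x‖ / om x) (by positivity)
    have := m0 x
    calc _ ≤ P * ((K * min (lw x) (1 / f0)) ^ 5 * (psi v x ^ 2 * W x ^ 2)) := by
          gcongr
          · exact a2.trans (by gcongr)
          · exact w1 x
      _ = _ := by simp only [hr]; ring
  have b3 : ∫⁻ x in {x | |dd v x| ≤ 1}, ENNReal.ofReal (K * 8 ^ 6 * P * s x) ≤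
      ENNReal.ofReal A * (ENNReal.ofReal e' * G + ENNReal.ofReal (K ^ 5) * R) := by
    refine (setLIntegral_le_lintegral _ _).trans ?_
    rw [← ofReal_integral_eq_lintegral_ofReal (is.const_mul _)
      (ae_of_all _ fun x => by have := s0 x; positivity), integral_const_mul]
    refine le_trans ?_ (mul_le_mul_right (add_le_add b1 b2) _)
    refine le_trans ?_ (mul_le_mul_right ENNReal.ofReal_add_le _)
    rw [← ENNReal.ofReal_mul A0]
    refine ENNReal.ofReal_le_ofReal ?_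
    calc _ ≤ K * 8 ^ 6 * P * (C5 * (BAD b v (profF f0) om e0 + LAM v (profF f0) om)) := by
          gcongr; exact h5 v (profF f0) om hv hs hw
      _ = _ := by rw [hA]; ring
  have ms : AEMeasurable (fun x => ENNReal.ofReal (K * 8 ^ 6 * P * s x))
      (volume.restrict {x | |dd v x| ≤ 1}) :=
    ((is.const_mul _).aemeasurable.ennreal_ofReal).restrict
  calc _ ≤ ∫⁻ x in {x | |dd v x| ≤ 1}, (ENNReal.ofReal (C0 * e') * ENNReal.ofReal (g x) +
          (ENNReal.ofReal (K * 8 ^ 6 * P * s x) +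
            ENNReal.ofReal (64 * (C0 * L ^ 2) ^ 2) * ENNReal.ofReal (r x))) := by
        refine setLIntegral_mono' (meas_band h 1) fun x hx => ?_
        rw [← ENNReal.ofReal_mul (by positivity), ← ENNReal.ofReal_mul (by positivity)]
        exact ((ENNReal.ofReal_le_ofReal (pt x hx)).trans ENNReal.ofReal_add_le).trans
          (add_le_add le_rfl ENNReal.ofReal_add_le)
    _ ≤ ENNReal.ofReal (C0 * e') * G +
          (ENNReal.ofReal A * (ENNReal.ofReal e' * G + ENNReal.ofReal (K ^ 5) * R) +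
            ENNReal.ofReal (64 * (C0 * L ^ 2) ^ 2) * R) := by
        rw [lintegral_add_left (mg.ennreal_ofReal.const_mul _), lintegral_add_left' ms,
          lintegral_const_mul' _ _ ENNReal.ofReal_ne_top,
          lintegral_const_mul' _ _ ENNReal.ofReal_ne_top]
        gcongr
        exact setLIntegral_le_lintegral _ _
    _ = ENNReal.ofReal ((C0 + A) * e') * G +
          ENNReal.ofReal (64 * (C0 * L ^ 2) ^ 2 + A * K ^ 5) * R := by
        rw [add_mul C0, ENNReal.ofReal_add (by positivity) (by positivity),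
          ENNReal.ofReal_add (by positivity) (by positivity), ENNReal.ofReal_mul A0,
          ENNReal.ofReal_mul A0]
        ring
    _ ≤ _ := by gcongr

end

end Crest.Agent.N067.T
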